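import Vale.Agent.P243.Bdl.B1

namespace Vale.Agent.Results.P243.HalfArea

open Vale.Agent.P243.Plain

/-- Bang's half-area inequality is false: some convex body has a finite covering by cylinders with
compact convex bases whose total base area is smaller than half of the least shadow area of the
body. Its directionwise relative area is then smaller than `1 / 2` as well. Moreover
`c3 ≤ 1 / 2 - 2 / 1000000` and `r3 ≤ 5 / 12`. -/
theorem result :
    (∃ K, IsConvexBody K ∧ ∃ C : CylinderCovering K,
      (∀ i, IsCompact (C.base i) ∧ Convex ℝ (C.base i)) ∧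
      C.totalArea < 1 / 2 * Amin K ∧ C.relArea < 1 / 2) ∧
    c3 ≤ 1 / 2 - 2 / 1000000 ∧ r3 ≤ 5 / 12 := by
  obtain ⟨C, hC, hb⟩ := Vale.Agent.P243.exists_small_covering_convex
  obtain ⟨⟨K, hK, C', hb', hA, h1, h2⟩, h3⟩ := Vale.Agent.P243.Bridge.full_transfer
    Vale.Agent.P243.isConvexBody_tetra hC hb Vale.Agent.P243.Amin_tetra_ge (by norm_num)
  refine ⟨⟨K, hK, C', hb', lt_of_le_of_lt h1 ?_, lt_of_le_of_lt h2 (by norm_num)⟩,
    h3.trans (by norm_num), Vale.Agent.P243.Bridge.r3_le Vale.Agent.P243.isConvexBody_K0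
    Vale.Agent.P243.exists_covering_K0⟩
  exact mul_lt_mul_of_pos_right (by norm_num) hA

end Vale.Agent.Results.P243.HalfArea
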